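import Vale.Agent.P025.R2.H907.Loc4

/-!
# G-LOCAL (blueprint (6.2), (6.3))

All statements of the former spec are proved in `Loc0` - `Loc4` with the same names:
`U2`, `DivOn`, `exists_limit` (L1), `exists_aut` (L2a, hypothesis `tt C * σ⁻¹ ∈ A2 C`),
`exists_order` (L2b), `exists_normal_form` (L2), `logDer_order` (L3), `der_sub2`.
-/
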